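import Vale.Agent.P092.H375.SU.Inst
import Vale.Agent.P092.H370.Fo5

/-!
P092 (helper375), TRACK H, [H-INST], part 2: every nondegenerate (skew) hermitian form over `ℂ` is,
after a linear change of coordinates, a multiple of `star w ⬝ᵥ (D *ᵥ v)` with `Dᴴ = D`, `D * D = 1`;
for Witt index two `D` is a constant sign on the complement of `P` and `D P D`.
-/

set_option linter.all false

namespace Vale.Agent.P092.H375.SU

open Matrix Module Set Topology
open Vale.Agent.P092.H100.Gr (Gr Fr sp sp_surj sp_quot fr_val_cont)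
open Vale.Agent.P092.H370.Po
open Vale.Agent.P092.H714.Cl
open Vale.Agent.P092.H616.Syn (Minor)
open Vale.Agent.P092.H616.Cx (HP Geo nsq nsq_pos trace_star_mul)
open Vale.Agent.P092.H616.CG

section diag

variable {N : ℕ}

/-- the square root of the absolute value -/
noncomputable def ra (t : ℝ) : ℂ := ((Real.sqrt |t| : ℝ) : ℂ)

/-- the sign -/
noncomputable def sg (t : ℝ) : ℂ := if 0 < t then 1 else -1

theorem ra_star (t : ℝ) : star (ra t) = ra t := Complex.conj_ofReal _

theorem sg_star (t : ℝ) : star (sg t) = sg t := by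
  unfold sg
  split_ifs <;> simp

theorem sg_sq (t : ℝ) : sg t * sg t = 1 := by
  unfold sg
  split_ifs <;> norm_num

theorem ra_sg {t : ℝ} (ht : t ≠ 0) : ra t * sg t * ra t = (t : ℂ) := by
  have h1 : ra t * sg t * ra t = sg t * (ra t * ra t) := by ring
  have h2 : ra t * ra t = ((|t| : ℝ) : ℂ) := by
    unfold ra
    rw [← Complex.ofReal_mul, Real.mul_self_sqrt (abs_nonneg t)]
  rw [h1, h2]
  unfold sg
  split_ifs with h
  · rw [abs_of_pos h, one_mul]
  · rw [abs_of_neg (lt_of_le_of_ne (not_lt.1 h) ht)]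
    push_cast
    ring

theorem ra_ne {t : ℝ} (ht : t ≠ 0) : ra t ≠ 0 := by
  unfold ra
  rw [Complex.ofReal_ne_zero]
  exact (Real.sqrt_pos.2 (abs_pos.2 ht)).ne'

/-- a nondegenerate hermitian matrix is congruent to a hermitian involution -/
theorem exists_cong {H : Matrix (Fin N) (Fin N) ℂ} (hH : Hᴴ = H)
    (hn : ∀ v, H *ᵥ v = 0 → v = 0) :
    ∃ B B' D : Matrix (Fin N) (Fin N) ℂ, B * B' = 1 ∧ B' * B = 1 ∧ Dᴴ = D ∧ D * D = 1 ∧
      Bᴴ * D * B = H := by
  have hI : H.IsHermitian := hH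
  let U : Matrix (Fin N) (Fin N) ℂ := hI.eigenvectorUnitary.1
  have hU1 : star U * U = 1 := Unitary.coe_star_mul_self hI.eigenvectorUnitary
  have hU2 : U * star U = 1 := Unitary.coe_mul_star_self hI.eigenvectorUnitary
  let lam : Fin N → ℝ := hI.eigenvalues
  have hsp : H = U * diagonal (fun i => ((lam i : ℝ) : ℂ)) * star U := hI.spectral_theorem
  have hl : ∀ i, lam i ≠ 0 := by
    intro i h0
    have h1 : H *ᵥ (U *ᵥ Pi.single i 1) = 0 := by
      rw [hsp, Matrix.mulVec_mulVec, Matrix.mul_assoc, hU1, Matrix.mul_one, ← Matrix.mulVec_mulVec,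
        Matrix.diagonal_mulVec_single, h0]
      simp
    have h2 := hn _ h1
    have h3 : star U *ᵥ (U *ᵥ Pi.single i 1) = Pi.single i (1 : ℂ) := by
      rw [Matrix.mulVec_mulVec, hU1, Matrix.one_mulVec]
    rw [h2, Matrix.mulVec_zero] at h3
    have h4 := congrFun h3 i
    simp at h4
  refine ⟨diagonal (fun i => ra (lam i)) * star U, U * diagonal (fun i => (ra (lam i))⁻¹),
    diagonal fun i => sg (lam i), ?_, ?_, ?_, ?_, ?_⟩
  · rw [Matrix.mul_assoc, ← Matrix.mul_assoc (star U), hU1, Matrix.one_mul, diagonal_mul_diagonal]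
    rw [← diagonal_one]
    congr 1
    funext i
    exact mul_inv_cancel₀ (ra_ne (hl i))
  · rw [Matrix.mul_assoc, ← Matrix.mul_assoc (diagonal _) (diagonal _), diagonal_mul_diagonal]
    have : (diagonal fun i => (ra (lam i))⁻¹ * ra (lam i) : Matrix (Fin N) (Fin N) ℂ) = 1 := by
      rw [← diagonal_one]
      congr 1
      funext i
      exact inv_mul_cancel₀ (ra_ne (hl i))
    rw [this, Matrix.one_mul, hU2]
  · rw [diagonal_conjTranspose]
    congr 1
    funext i
    exact sg_star _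
  · rw [diagonal_mul_diagonal, ← diagonal_one]
    congr 1
    funext i
    exact sg_sq _
  · rw [Matrix.conjTranspose_mul, diagonal_conjTranspose, star_eq_conjTranspose,
      Matrix.conjTranspose_conjTranspose]
    rw [hsp, star_eq_conjTranspose]
    have e : (diagonal (star fun i => ra (lam i)) : Matrix (Fin N) (Fin N) ℂ) =
        diagonal fun i => ra (lam i) := by
      congr 1
      funext i
      exact ra_star _
    rw [e, Matrix.mul_assoc, Matrix.mul_assoc, Matrix.mul_assoc,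
      ← Matrix.mul_assoc (diagonal fun i => sg (lam i)), diagonal_mul_diagonal,
      ← Matrix.mul_assoc (diagonal fun i => ra (lam i)), diagonal_mul_diagonal]
    congr 2
    congr 1
    funext i
    rw [← mul_assoc]
    exact ra_sg (hl i)

end diag

section form

variable {n : Type} [Fintype n] [DecidableEq n] {N : ℕ} {ε : ℂ} {J : Matrix n n ℂ}

theorem hf_star (v w : n → ℂ) : hf (starRingEnd ℂ) J v w = star w ⬝ᵥ (Jᵀ *ᵥ v) := by
  rw [Matrix.mulVec_transpose, hf, Matrix.dotProduct_mulVec, dotProduct_comm]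
  rfl

theorem hf_single (a b : n) :
    hf (starRingEnd ℂ) J (Pi.single a 1) (Pi.single b 1) = J a b := by
  rw [hf_star]
  have h3 : star (Pi.single b (1 : ℂ) : n → ℂ) = Pi.single b 1 := by
    funext i
    by_cases hi : i = b
    · subst hi
      simp
    · simp [hi]
  rw [h3, Matrix.mulVec_single_one, single_dotProduct, one_mul]
  rfl

/-- **a (skew) hermitian form in good coordinates** -/
theorem exists_dg (hF : Frm (starRingEnd ℂ) ε J) (e : n ≃ Fin N) :
    ∃ (L : (n → ℂ) ≃ₗ[ℂ] (Fin N → ℂ)) (c : ℂ) (D : Matrix (Fin N) (Fin N) ℂ),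
      Dg L (starRingEnd ℂ) J c D := by
  -- the sign
  obtain ⟨c, hc0, hc⟩ : ∃ c : ℂ, c ≠ 0 ∧ star c⁻¹ * ε = c⁻¹ := by
    rcases mul_self_eq_one_iff.1 hF.eps with h | h
    · exact ⟨1, one_ne_zero, by rw [h]; simp⟩
    · refine ⟨Complex.I, Complex.I_ne_zero, ?_⟩
      rw [h, Complex.inv_I, star_neg]
      have : star Complex.I = -Complex.I := Complex.conj_I
      rw [this]
      ring
  -- the transposed matrix
  have hK : (Jᵀ)ᴴ = ε • Jᵀ := by
    ext i j
    have h1 := hF.herm (Pi.single i 1) (Pi.single j 1)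
    rw [hf_single, hf_single] at h1
    rw [Matrix.conjTranspose_apply, Matrix.smul_apply, Matrix.transpose_apply,
      Matrix.transpose_apply, h1, smul_eq_mul, ← mul_assoc, hF.eps, one_mul]
    rfl
  set H : Matrix (Fin N) (Fin N) ℂ := (c⁻¹ • Jᵀ).submatrix e.symm e.symm with hHd
  have hH : Hᴴ = H := by
    rw [hHd, Matrix.conjTranspose_submatrix, Matrix.conjTranspose_smul, hK, smul_smul, hc]
  have key : ∀ v w : n → ℂ, star (w ∘ e.symm) ⬝ᵥ (H *ᵥ (v ∘ e.symm)) =
      c⁻¹ * hf (starRingEnd ℂ) J v w := by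
    intro v w
    rw [hHd, Matrix.submatrix_mulVec_equiv, Equiv.symm_symm]
    have h1 : (v ∘ e.symm) ∘ e = v := by
      funext i
      simp
    have h2 : star (w ∘ e.symm) = (star w) ∘ e.symm := rfl
    rw [h1, h2, comp_equiv_dotProduct_comp_equiv, Matrix.smul_mulVec, dotProduct_smul,
      smul_eq_mul, hf_star]
  have hn : ∀ v, H *ᵥ v = 0 → v = 0 := by
    intro v hv
    by_contra h0
    have hv' : v ∘ e ≠ 0 := by
      intro h
      apply h0
      funext i
      have := congrFun h (e.symm i)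
      simpa using this
    obtain ⟨y, hy⟩ := hF.nondeg _ hv'
    have h1 := key (v ∘ e) y
    have h2 : (v ∘ e) ∘ e.symm = v := by
      funext i
      simp
    rw [h2, hv, dotProduct_zero] at h1
    exact hy ((mul_eq_zero.1 h1.symm).resolve_left (inv_ne_zero hc0))
  obtain ⟨B, B', D, h1, h2, h3, h4, h5⟩ := exists_cong hH hn
  refine ⟨(LinearEquiv.funCongrLeft ℂ ℂ e.symm).trans (Matrix.toLin'OfInv h2 h1), c, D,
    h3, h4, hc0, fun v w => ?_⟩
  have e1 : ∀ v : n → ℂ, ((LinearEquiv.funCongrLeft ℂ ℂ e.symm).trans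
      (Matrix.toLin'OfInv h2 h1)) v = B *ᵥ (v ∘ e.symm) := fun v => rfl
  rw [e1, e1, Matrix.star_mulVec, ← Matrix.dotProduct_mulVec, Matrix.mulVec_mulVec,
    Matrix.mulVec_mulVec, h5, key, ← mul_assoc, mul_inv_cancel₀ hc0, one_mul]

end form

section nu

variable {n : Type} [Fintype n] [DecidableEq n] {N : ℕ} {L : (n → ℂ) ≃ₗ[ℂ] (Fin N → ℂ)}
  {σ : ℂ →+* ℂ} {ε : ℂ} {J : Matrix n n ℂ} {c : ℂ} {D : Matrix (Fin N) (Fin N) ℂ}

/-- the projection on the complement of `P` and `D P D` -/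
noncomputable def nuM (D P : Matrix (Fin N) (Fin N) ℂ) : Matrix (Fin N) (Fin N) ℂ :=
  1 - P - D * P * D

/-- a maximal isotropic hermitian projection of rank two for `D` -/
structure Mx (D P : Matrix (Fin N) (Fin N) ℂ) : Prop where
  dh : Dᴴ = D
  dd : D * D = 1
  ph : Pᴴ = P
  pp : P * P = P
  tr : trace P = 2
  iso : P * D * P = 0
  max : ∀ x, nuM D P *ᵥ x = x → star x ⬝ᵥ (D *ᵥ x) = 0 → x = 0

section mx

variable {P P' : Matrix (Fin N) (Fin N) ℂ}

theorem Mx.dnu (h : Mx D P) : D * nuM D P = nuM D P * D := by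
  have h1 : D * (D * P * D) = P * D := by
    rw [← Matrix.mul_assoc, ← Matrix.mul_assoc, h.dd, Matrix.one_mul]
  have h2 : D * P * D * D = D * P := by rw [Matrix.mul_assoc, h.dd, Matrix.mul_one]
  rw [nuM, Matrix.mul_sub, Matrix.mul_sub, Matrix.sub_mul, Matrix.sub_mul, h1, h2,
    Matrix.mul_one, Matrix.one_mul]
  abel

theorem Mx.pnu (h : Mx D P) : P * nuM D P = 0 := by
  have h1 : P * (D * P * D) = 0 := by
    rw [← Matrix.mul_assoc, ← Matrix.mul_assoc, h.iso, Matrix.zero_mul]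
  rw [nuM, Matrix.mul_sub, Matrix.mul_sub, h1, h.pp, Matrix.mul_one]
  simp

theorem Mx.nup (h : Mx D P) : nuM D P * P = 0 := by
  have h1 : D * P * D * P = 0 := by
    have : D * P * D * P = D * (P * D * P) := by simp only [Matrix.mul_assoc]
    rw [this, h.iso, Matrix.mul_zero]
  rw [nuM, Matrix.sub_mul, Matrix.sub_mul, h1, h.pp, Matrix.one_mul]
  simp

theorem Mx.nuh (h : Mx D P) : (nuM D P)ᴴ = nuM D P := by
  rw [nuM, Matrix.conjTranspose_sub, Matrix.conjTranspose_sub, Matrix.conjTranspose_one, h.ph,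
    Matrix.conjTranspose_mul, Matrix.conjTranspose_mul, h.ph, h.dh, Matrix.mul_assoc]

theorem Mx.nunu (h : Mx D P) : nuM D P * nuM D P = nuM D P := by
  have h1 : nuM D P * (D * P * D) = 0 := by
    rw [Matrix.mul_assoc D, ← Matrix.mul_assoc, ← h.dnu, Matrix.mul_assoc, ← Matrix.mul_assoc (nuM D P),
      h.nup, Matrix.zero_mul, Matrix.mul_zero]
  conv_lhs => rw [show nuM D P * nuM D P = nuM D P * (1 - P - D * P * D) from rfl]
  rw [Matrix.mul_sub, Matrix.mul_sub, h1, h.nup, Matrix.mul_one, sub_zero, sub_zero]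

theorem Mx.trnu (h : Mx D P) : trace (nuM D P) = (N : ℂ) - 4 := by
  have h1 : trace (D * P * D) = 2 := by
    rw [Matrix.trace_mul_comm, ← Matrix.mul_assoc, h.dd, Matrix.one_mul, h.tr]
  rw [nuM, Matrix.trace_sub, Matrix.trace_sub, h1, h.tr, Matrix.trace_one, Fintype.card_fin]
  ring

theorem Mx.trD (h : Mx D P) : trace (D * nuM D P) = trace D := by
  have h1 : trace (D * P) = 0 := by
    rw [← h.pp, ← Matrix.mul_assoc, Matrix.trace_mul_comm, ← Matrix.mul_assoc, h.iso,
      Matrix.trace_zero]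
  have h2 : D * (D * P * D) = P * D := by
    rw [← Matrix.mul_assoc, ← Matrix.mul_assoc, h.dd, Matrix.one_mul]
  have h3 : trace (P * D) = 0 := by rw [Matrix.trace_mul_comm, h1]
  rw [nuM, Matrix.mul_sub, Matrix.mul_sub, Matrix.trace_sub, Matrix.trace_sub, h2, h1, h3,
    Matrix.mul_one, sub_zero, sub_zero]

theorem Mx.zero_of_tr (h : Mx D P) (h0 : trace (nuM D P) = 0) : nuM D P = 0 := by
  by_contra hne
  have h1 := trace_star_mul (nuM D P)
  rw [h.nuh, h.nunu, h0] at h1
  have h2 := nsq_pos hne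
  have h3 : nsq (nuM D P) = 0 := by exact_mod_cast h1.symm
  linarith

theorem col_ne {M : Matrix (Fin N) (Fin N) ℂ} (hM : M ≠ 0) : ∃ v, M *ᵥ v ≠ 0 := by
  by_contra hcon
  push Not at hcon
  apply hM
  apply Matrix.ext_of_mulVec_single
  intro i
  rw [hcon, Matrix.zero_mulVec]

/-- the sign on the complement -/
theorem Mx.sign (h : Mx D P) : D * nuM D P = nuM D P ∨ D * nuM D P = -nuM D P := by
  by_cases hA : nuM D P + D * nuM D P = 0
  · exact Or.inr (eq_neg_of_add_eq_zero_right hA)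
  by_cases hB : nuM D P - D * nuM D P = 0
  · exact Or.inl (sub_eq_zero.1 hB).symm
  exfalso
  obtain ⟨a, ha⟩ := col_ne hA
  obtain ⟨b, hb⟩ := col_ne hB
  set x := (nuM D P + D * nuM D P) *ᵥ a with hx
  set y := (nuM D P - D * nuM D P) *ᵥ b with hy
  clear_value x y
  have nx : nuM D P *ᵥ x = x := by
    rw [hx, Matrix.mulVec_mulVec]
    congr 1
    rw [Matrix.mul_add, h.nunu, ← Matrix.mul_assoc, ← h.dnu, Matrix.mul_assoc, h.nunu]
  have ny : nuM D P *ᵥ y = y := by
    rw [hy, Matrix.mulVec_mulVec]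
    congr 1
    rw [Matrix.mul_sub, h.nunu, ← Matrix.mul_assoc, ← h.dnu, Matrix.mul_assoc, h.nunu]
  have dx : D *ᵥ x = x := by
    rw [hx, Matrix.mulVec_mulVec]
    congr 1
    rw [Matrix.mul_add, ← Matrix.mul_assoc, h.dd, Matrix.one_mul, add_comm]
  have dy : D *ᵥ y = -y := by
    rw [hy, Matrix.mulVec_mulVec, ← Matrix.neg_mulVec]
    congr 1
    rw [Matrix.mul_sub, ← Matrix.mul_assoc, h.dd, Matrix.one_mul, neg_sub]
  have hxy : hp x y = 0 := by
    have h1 : star x ⬝ᵥ (D *ᵥ y) = star (D *ᵥ x) ⬝ᵥ y := by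
      rw [Matrix.star_mulVec, h.dh, ← Matrix.dotProduct_mulVec]
    rw [dx, dy, dotProduct_neg] at h1
    have h2 : hp x y = -hp x y := h1.symm
    linear_combination h2 / 2
  have hyx : hp y x = 0 := by rw [← hp_star, hxy, star_zero]
  -- the isotropic combination
  let s : ℂ := ((Real.sqrt (ns y) : ℝ) : ℂ)
  let t : ℂ := ((Real.sqrt (ns x) : ℝ) : ℂ)
  have ss : star s = s := Complex.conj_ofReal _
  have ts : star t = t := Complex.conj_ofReal _
  have s2 : s * s = hp y y := by
    change ((Real.sqrt (ns y) : ℝ) : ℂ) * ((Real.sqrt (ns y) : ℝ) : ℂ) = _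
    rw [← Complex.ofReal_mul, Real.mul_self_sqrt (ns_pos hb).le, hp_self]
  have t2 : t * t = hp x x := by
    change ((Real.sqrt (ns x) : ℝ) : ℂ) * ((Real.sqrt (ns x) : ℝ) : ℂ) = _
    rw [← Complex.ofReal_mul, Real.mul_self_sqrt (ns_pos ha).le, hp_self]
  have hz : s • x + t • y = 0 := by
    apply h.max
    · rw [Matrix.mulVec_add, Matrix.mulVec_smul, Matrix.mulVec_smul, nx, ny]
    · rw [Matrix.mulVec_add, Matrix.mulVec_smul, Matrix.mulVec_smul, dx, dy]
      have e1 : star (s • x + t • y) = s • star x + t • star y := by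
        rw [star_add, star_smul, star_smul, ss, ts]
      rw [e1]
      simp only [add_dotProduct, dotProduct_add, smul_dotProduct, dotProduct_smul, dotProduct_neg,
        smul_eq_mul, smul_neg]
      change s * (s * hp x x + t * hp y x) + -(t * (s * hp x y + t * hp y y)) = 0
      rw [hxy, hyx, ← s2, ← t2]
      ring
  have h5 : hp x (s • x + t • y) = 0 := by
    rw [hz]
    simp [hp]
  rw [hp_add, hp_smul, hp_smul, hxy, mul_zero, add_zero] at h5
  rcases mul_eq_zero.1 h5 with h6 | h6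
  · rw [h6, zero_mul] at s2
    exact hp_ne hb s2.symm
  · exact hp_ne ha h6

/-- the sign does not depend on the plane -/
theorem sign_all {I : Type*} (P : I → Matrix (Fin N) (Fin N) ℂ) (h : ∀ i, Mx D (P i)) :
    ∃ c' : ℂ, (c' = 1 ∨ c' = -1) ∧ ∀ i, D * nuM D (P i) = c' • nuM D (P i) := by
  by_cases hex : ∃ i, nuM D (P i) ≠ 0
  · obtain ⟨i, hi⟩ := hex
    have hs : ∀ j, ∃ c' : ℂ, (c' = 1 ∨ c' = -1) ∧ D * nuM D (P j) = c' • nuM D (P j) := by
      intro j
      rcases (h j).sign with h1 | h1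
      · exact ⟨1, Or.inl rfl, by rw [h1, one_smul]⟩
      · exact ⟨-1, Or.inr rfl, by rw [h1, neg_smul, one_smul]⟩
    obtain ⟨c', hc', h1⟩ := hs i
    refine ⟨c', hc', fun j => ?_⟩
    obtain ⟨d', hd', h2⟩ := hs j
    have t1 := (h i).trD
    have t2 := (h j).trD
    rw [h1, Matrix.trace_smul, (h i).trnu, smul_eq_mul] at t1
    rw [h2, Matrix.trace_smul, (h j).trnu, smul_eq_mul] at t2
    have hN : (N : ℂ) - 4 ≠ 0 := by
      intro h0
      exact hi ((h i).zero_of_tr (by rw [(h i).trnu, h0]))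
    have : d' = c' := mul_right_cancel₀ hN (t2.trans t1.symm)
    rw [h2, this]
  · push Not at hex
    exact ⟨1, Or.inl rfl, fun i => by rw [hex i, Matrix.mul_zero, smul_zero]⟩

end mx

/-- the planes of a form of Witt index two -/
theorem mx_PH (h : Dg L σ J c D) (hF : Frm σ ε J) (hW : WI σ J 2) (l : SGr σ J 2) :
    Mx D (PH L σ J l) where
  dh := h.herm
  dd := h.sq
  ph := (isPr_q2 L l.1).symm
  pp := (isPr_q2 L l.1).idem
  tr := by
    have := (hp_q2 L l.1).trace
    rw [PH, ContinuousMap.coe_mk, this]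
    norm_num
  iso := PH_iso h l
  max := by
    intro x hx h0
    by_contra hx0
    have hpr : IsPr (l.S.map L.toLinearMap) (PH L σ J l) := isPr_q2 L l.1
    have hd : D * nuM D (PH L σ J l) = nuM D (PH L σ J l) * D := by
      have h1 : D * (D * PH L σ J l * D) = PH L σ J l * D := by
        rw [← Matrix.mul_assoc, ← Matrix.mul_assoc, h.sq, Matrix.one_mul]
      have h2 : D * PH L σ J l * D * D = D * PH L σ J l := by
        rw [Matrix.mul_assoc, h.sq, Matrix.mul_one]
      rw [nuM, Matrix.mul_sub, Matrix.mul_sub, Matrix.sub_mul, Matrix.sub_mul, h1, h2,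
        Matrix.mul_one, Matrix.one_mul]
      abel
    have hpn : PH L σ J l * nuM D (PH L σ J l) = 0 := by
      have h1 : PH L σ J l * (D * PH L σ J l * D) = 0 := by
        rw [← Matrix.mul_assoc, ← Matrix.mul_assoc, PH_iso h l, Matrix.zero_mul]
      rw [nuM, Matrix.mul_sub, Matrix.mul_sub, h1, hpr.idem, Matrix.mul_one]
      simp
    have hpx : PH L σ J l *ᵥ x = 0 := by
      rw [← hx, Matrix.mulVec_mulVec, hpn, Matrix.zero_mulVec]
    have hpdx : PH L σ J l *ᵥ (D *ᵥ x) = 0 := by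
      have h1 : D *ᵥ x = nuM D (PH L σ J l) *ᵥ (D *ᵥ x) := by
        rw [Matrix.mulVec_mulVec, ← hd, ← Matrix.mulVec_mulVec, hx]
      rw [h1, Matrix.mulVec_mulVec, hpn, Matrix.zero_mulVec]
    -- the vector in the original coordinates
    have hLy : L (L.symm x) = x := L.apply_symm_apply x
    have hyy : hf σ J (L.symm x) (L.symm x) = 0 := by
      rw [h.eq, hLy, h0, mul_zero]
    have hay : ∀ a ∈ l.S, hf σ J a (L.symm x) = 0 := by
      intro a ha
      have h1 : PH L σ J l *ᵥ L a = L a := hpr.fix _ ⟨a, ha, rfl⟩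
      rw [h.eq, hLy, ← h1]
      have h2 : star x ⬝ᵥ (D *ᵥ (PH L σ J l *ᵥ L a)) =
          star (PH L σ J l *ᵥ (D *ᵥ x)) ⬝ᵥ L a := by
        rw [Matrix.mulVec_mulVec, Matrix.mulVec_mulVec, Matrix.star_mulVec,
          Matrix.conjTranspose_mul, h.herm, hpr.symm, ← Matrix.dotProduct_mulVec]
      rw [h2, hpdx, star_zero, zero_dotProduct, mul_zero]
    have hnot : L.symm x ∉ l.S := by
      intro hin
      have h1 : PH L σ J l *ᵥ x = x := hpr.fix x ⟨_, hin, hLy⟩
      rw [hpx] at h1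
      exact hx0 h1.symm
    have h3 := hW.2 _ (H370.Po.sing_sup_span hF l.sing hyy hay)
    rw [finrank_sup_span hnot, l.dim] at h3
    omega

/-- **the sign of the complement** -/
theorem nu_PH (h : Dg L σ J c D) (hF : Frm σ ε J) (hW : WI σ J 2) :
    ∃ c' : ℂ, (c' = 1 ∨ c' = -1) ∧ ∀ l : SGr σ J 2,
      D * nuM D (PH L σ J l) = c' • nuM D (PH L σ J l) :=
  sign_all (fun l : SGr σ J 2 => PH L σ J l) fun l => mx_PH h hF hW l

end nu

end Vale.Agent.P092.H375.SU
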