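import Vale.Agent.P092.H375.SU.Fin0
import Vale.Agent.P092.H574.H7
import Vale.Agent.P092.UN.NfUC

/-!
P092 (helper375), TRACK H, the end at `t = 1`: W*-superrigidity of the ICC lattices of the groups
`SU(2, n)`, `n ≥ 2` (class `LatticeUC`).
-/

set_option linter.all false

open Filter Topology MeasureTheory TopologicalSpace Matrix

namespace Vale.Agent.P092.H375.SU

open Vale.Agent.P092.CL
open Vale.Agent.P092.H303 (FormGroup Idx hyp)
open Vale.Agent.P092.H714.Cl
open Vale.Agent.P092.SN (CoreE)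
open Vale.Agent.P092.H85.CU (NfD)

variable {ι : Type} [Fintype ι] [DecidableEq ι] {J₀ : Matrix ι ι ℂ}

/-- the weighted count -/
theorem wcH_all : WcH J₀ := by
  intro h _ w hw hσ hw1 μ₁ μ₂ N Λ c D hD e c₀ F bp bm hc₀ hbp Γ _ q h1 h2 r u v C δ hδ h3 h4
  have han : ∀ v, hf (starRingEnd ℂ) J₀ v v = 0 → v = 0 := fun v hv => by
    by_contra hv0
    exact h.an v hv0 hv
  obtain ⟨C₀, δ₀, a0, a1, a2, H⟩ := dictH1 hD hδ h3 h4
  exact H574.H.wcH h.hn h.frm han hw hσ μ₁ μ₂ e hc₀ hbp h1 h2 a0 a1 a2 H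

/-- **The core for `PSU(2, n)`**, `t = 1`. -/
theorem core_uc (h : NfD (starRingEnd ℂ) 1 J₀ 0) :
    CoreE (FormGroup (starRingEnd ℂ) (hyp (0 + 2) 1 J₀) ⧸
      Subgroup.center (FormGroup (starRingEnd ℂ) (hyp (0 + 2) 1 J₀))) := coreH_cen h wcH_all

end Vale.Agent.P092.H375.SU

namespace Vale.Agent.P092.UN

/-- **W*-superrigidity of the ICC lattices of the groups `SU(2, n)`.** -/
theorem latticeUC_super : ∀ (Γ : Type) [Group Γ], LatticeUC Γ → Super Γ :=
  super_latticeUC fun _ _ _ _ h => H375.SU.core_uc h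

end Vale.Agent.P092.UN
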