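import Vale.Agent.P092.H375.SU.One
import Vale.Agent.P092.H99.CLX.Main
import Vale.Agent.P092.CL.BrW
import Vale.Agent.P092.CL.UniC
import Vale.Agent.P092.H71.P.CLGap2
import Vale.Agent.P092.H874.CLAdm
import Vale.Agent.P092.H411.S2.WalLt
import Vale.Agent.P092.H632.T2.Bpx

/-!
P092 (helper375), TRACK H: the last assembly for `SU(2, n)` at `t = 1`, from the weighted count.
-/

set_option linter.all false

open scoped InnerProductSpace ENNReal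
open Filter Topology MeasureTheory TopologicalSpace Matrix

namespace Vale.Agent.P092.H375.SU

open Vale.Agent.P092.CL
open Vale.Agent.P092.H303 (FormGroup Idx hyp)
open Vale.Agent.P092.H714.Cl
open Vale.Agent.P092.H370.Po (SGr Inc Sing WI)
open Vale.Agent.P092.SN (CoreE)
open Vale.Agent.P092.H933 (LeviGap LocK)
open Vale.Agent.P092.H632.T2 (gau BpX gauOk_x)
open Vale.Agent.P092.H85.CU (NfD)
open Vale.Agent.P092.H616.HA (OneStmtR ExStmtR)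
open Vale.Agent.P092.H99.CLX (Xtra ExStmtX OneStmtX coreE_ofX)
open Vale.Agent.P092.H100.SU (O1 Sec1 Far1)

variable {ι : Type} [Fintype ι] [DecidableEq ι] {J₀ : Matrix ι ι ℂ}

/-- the weighted count for the letters `lt` of `SU(2, n)` -/
def WcH (J₀ : Matrix ι ι ℂ) : Prop :=
  ∀ (h : NfD (starRingEnd ℂ) 1 J₀ 0) [Fact (Continuous (starRingEnd ℂ))] {w : ℂ}
    (hw : w ≠ 0) (hσ : starRingEnd ℂ w = w) (_ : ‖w‖ < 1) (μ₁ : Measure ℂ)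
    (μ₂ : Measure (V2 (starRingEnd ℂ) 1)) {N : ℕ}
    {Λ : (Idx (0 + 2) ι → ℂ) ≃ₗ[ℂ] (Fin (N + 1) → ℂ)} {c : ℂ}
    {D : Matrix (Fin (N + 1)) (Fin (N + 1)) ℂ}
    (_ : Dg Λ (starRingEnd ℂ) (hyp (0 + 2) 1 J₀) c D)
    (e : Idx (0 + 2) ι ≃ Fin (N + 1)) {c₀ : ℝ}
    {F : Finset (SGr (starRingEnd ℂ) (hyp (0 + 2) 1 J₀) 1)}
    {bp : FormGroup (starRingEnd ℂ) (hyp (0 + 2) 1 J₀) →
      SGr (starRingEnd ℂ) (hyp (0 + 2) 1 J₀) 1}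
    {bm : FormGroup (starRingEnd ℂ) (hyp (0 + 2) 1 J₀) →
      SGr (starRingEnd ℂ) (hyp (0 + 2) 1 J₀) (0 + 2)} (_ : 0 < c₀) (_ : BpX c₀ F bp)
    {Γ : Type} [Group Γ] (q : Γ → FormGroup (starRingEnd ℂ) (hyp (0 + 2) 1 J₀)),
    (lt h.frm hw hσ μ₁ μ₂).PH q → (lt h.frm hw hσ μ₁ μ₂).UD q → ∀ (r : ℕ)
      (u v : Fin r → C(SGr (starRingEnd ℂ) (hyp (0 + 2) 1 J₀) 1, ℂ)) (C δ : ℝ), 0 < δ →
      Sec1 (XH Λ (starRingEnd ℂ) (hyp (0 + 2) 1 J₀)) D C u v →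
      Far1 (XH Λ (starRingEnd ℂ) (hyp (0 + 2) 1 J₀)) δ u v →
      WC (lt h.frm hw hσ μ₁ μ₂) (gau e (0 + 2) (MonoidHom.id _) bp bm) q u v

/-- **The core for every admissible source group** of `SU(2, n)`, `t = 1`. -/
theorem coreH_adm {E : Type} [Group E] [TopologicalSpace E] [IsTopologicalGroup E]
    [LocallyCompactSpace E] [SecondCountableTopology E] [T2Space E]
    [Fact (Continuous (starRingEnd ℂ))]
    {i : FormGroup (starRingEnd ℂ) (hyp (0 + 2) 1 J₀) →* E} (h : NfD (starRingEnd ℂ) 1 J₀ 0)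
    {w : ℂ} (hw : w ≠ 0) (hσ : starRingEnd ℂ w = w) (hw1 : ‖w‖ < 1) (μ₁ : Measure ℂ)
    (μ₂ : Measure (V2 (starRingEnd ℂ) 1)) [μ₁.IsAddHaarMeasure] [μ₂.IsAddHaarMeasure]
    (hA : Adm (lt h.frm hw hσ μ₁ μ₂) i) (hwc : WcH J₀) : CoreE E := by
  have hF := h.frm
  have hW := h.wi
  have hσn := h.hn
  have hG := geo hF hW hσn hw hσ hw1 μ₁ μ₂
  obtain ⟨N, hN⟩ : ∃ N, Fintype.card (Idx (0 + 2) ι) = N + 1 :=
    Nat.exists_eq_succ_of_ne_zero (Fintype.card_ne_zero (α := Idx (0 + 2) ι))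
  have e : Idx (0 + 2) ι ≃ Fin (N + 1) := Fintype.equivFinOfCardEq hN
  obtain ⟨c₀, F, bp, bm, hc₀, hbp, hT⟩ := gauOk_x locK_complex hσn e hF hW hw hσ μ₁ μ₂
  obtain ⟨Λ, c, D, hD⟩ := exists_dg hF e
  have hOne : OneStmtR (fun {K} _ _ U => O1 (XH Λ (starRingEnd ℂ) (hyp (0 + 2) 1 J₀)) D U)
      (lt hF hw hσ μ₁ μ₂) := @oneStmtR_ltH ι _ _ J₀ _ h w hw hσ hw1 μ₁ μ₂ _ _ (N + 1) Λ c D hD
  obtain ⟨g1, g2⟩ := H71.CLP.gap_lt hF hσn locK_complex hw hσ hw1 h.two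
  have hWl : WalStmt (lt hF hw hσ μ₁ μ₂) (gau e (0 + 2) (MonoidHom.id _) bp bm) i :=
    H411.S2.wal_lt locK_complex hσn hF hW hw hσ hw1 μ₁ μ₂ hG hA e bp bm
  have hExW : ExStmtW (lt hF hw hσ μ₁ μ₂) (gau e (0 + 2) (MonoidHom.id _) bp bm) i :=
    exStmtW_lt hσn hw hσ hw1 μ₁ μ₂ hF hW hA hT g1 g2 hWl
  have hC : CntW (fun {K} _ _ U => O1 (XH Λ (starRingEnd ℂ) (hyp (0 + 2) 1 J₀)) D U)
      (lt hF hw hσ μ₁ μ₂) (gau e (0 + 2) (MonoidHom.id _) bp bm) :=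
    cntW_O1 fun q h1 h2 r u v C δ h3 h4 h5 =>
      hwc h hw hσ hw1 μ₁ μ₂ hD e hc₀ hbp q h1 h2 r u v C δ h3 h4 h5
  have hEx : ExStmtR (fun {K} _ _ U => O1 (XH Λ (starRingEnd ℂ) (hyp (0 + 2) 1 J₀)) D U)
      (lt hF hw hσ μ₁ μ₂) i := exStmtR_of_W hC hExW
  have hCls : ClsStmt e (lt hF hw hσ μ₁ μ₂) := by
    intro E' Γ K _ _ _ _ _ _ 𝒰 ι π lam W Ω m q Ec F h
    exact H416.CLG.clsCL hG rfl e hF hW le_rfl h
  let XX : Xtra (SGr (starRingEnd ℂ) (hyp (0 + 2) 1 J₀) 1)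
      (SGr (starRingEnd ℂ) (hyp (0 + 2) 1 J₀) (0 + 2)) := fun {K} _ _ _ U V =>
    (∀ c, O1 (XH Λ (starRingEnd ℂ) (hyp (0 + 2) 1 J₀)) D (U c)) ∧
      ∀ l, O1 (XH Λ (starRingEnd ℂ) (hyp (0 + 2) 1 J₀)) D (V l)
  have hOne' : OneStmtX XX (lt hF hw hσ μ₁ μ₂) := hOne
  have hEx' : ExStmtX XX (lt hF hw hσ μ₁ μ₂) i := hEx
  exact coreE_ofX e hF hW le_rfl hG hA (H325.CL.sc_lt e hF hw hσ μ₁ μ₂)
    (H325.CL.nmc_lt e hF hw hσ μ₁ μ₂) hOne' hCls hEx'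

/-- **The core for `PSU(2, n)`**, `t = 1`, from the weighted count. -/
theorem coreH_cen (h : NfD (starRingEnd ℂ) 1 J₀ 0) (hwc : WcH J₀) :
    CoreE (FormGroup (starRingEnd ℂ) (hyp (0 + 2) 1 J₀) ⧸
      Subgroup.center (FormGroup (starRingEnd ℂ) (hyp (0 + 2) 1 J₀))) := by
  have hF := h.frm
  have hσn := h.hn
  haveI : Fact (Continuous (starRingEnd ℂ)) := ⟨continuous_of_norm hσn⟩
  haveI := H71.CLG.v2_proper (σ := starRingEnd ℂ) (ε := (1 : ℂ)) hσn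
  haveI := H874.CLAdm.t2_quo hF
    (Z := Subgroup.center (FormGroup (starRingEnd ℂ) (hyp (0 + 2) 1 J₀))) le_rfl
  haveI := H874.CLAdm.lc_quo hσn
    (Subgroup.center (FormGroup (starRingEnd ℂ) (hyp (0 + 2) 1 J₀)))
  haveI := H874.CLAdm.sc_quo
    (Subgroup.center (FormGroup (starRingEnd ℂ) (hyp (0 + 2) 1 J₀)))
  have hw : (1 / 2 : ℂ) ≠ 0 := by norm_num
  have hσ : starRingEnd ℂ (1 / 2 : ℂ) = 1 / 2 := by
    rw [map_div₀, map_one, map_ofNat]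
  have hw1 : ‖(1 / 2 : ℂ)‖ < 1 := by
    rw [norm_div, norm_one, RCLike.norm_ofNat]
    norm_num
  exact coreH_adm h hw hσ hw1 Measure.addHaar Measure.addHaar
    (H874.CLAdm.adm_cen hσn hF hw hσ _ _) hwc

end Vale.Agent.P092.H375.SU
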