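import Vale.Agent.P092.H616.CE
import Vale.Agent.P092.H616.CF
import Vale.Agent.P092.H370.Po4

/-!
P092 (helper375), TRACK H, [H-INST], part 1: singular points and planes of a hermitian form as
hermitian projections (after a linear change of coordinates `L`).
-/

set_option linter.all false

namespace Vale.Agent.P092.H375.SU

open Matrix Module Set Topology
open Vale.Agent.P092.H100.Gr (Gr Fr sp sp_surj sp_quot fr_val_cont)
open Vale.Agent.P092.H370.Po
open Vale.Agent.P092.H714.Cl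
open Vale.Agent.P092.H616.Syn (Minor)
open Vale.Agent.P092.H616.Cx (HP Geo)
open Vale.Agent.P092.H616.CG

section pic

variable {n : Type} [Fintype n] {N : ℕ} (L : (n → ℂ) ≃ₗ[ℂ] (Fin N → ℂ))

theorem L_cont : Continuous L := L.toLinearMap.continuous_of_finiteDimensional

theorem li_map {j : ℕ} {v : Fin j → n → ℂ} (hv : LinearIndependent ℂ v) :
    LinearIndependent ℂ fun i => L (v i) :=
  hv.map' L.toLinearMap (LinearMap.ker_eq_bot.2 L.injective)

theorem L_ne {v : n → ℂ} (hv : v ≠ 0) : L v ≠ 0 := fun h => hv (L.injective (by rw [h, map_zero]))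

theorem map_sp {j : ℕ} (v : Fr ℂ n j) :
    (sp v).1.map L.toLinearMap = Submodule.span ℂ (range fun i => L (v.1 i)) := by
  change (Submodule.span ℂ (range v.1)).map L.toLinearMap = _
  rw [Submodule.map_span, ← range_comp]
  rfl

theorem isPr_sp1 (v : Fr ℂ n 1) : IsPr ((sp v).1.map L.toLinearMap) (pr (L (v.1 0))) := by
  rw [map_sp]
  have h : (range fun i : Fin 1 => L (v.1 i)) = {L (v.1 0)} := by
    rw [range_unique]
    rfl
  rw [h]
  exact isPr_pr (L_ne L (v.2.ne_zero 0))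

theorem isPr_sp2 (v : Fr ℂ n 2) :
    IsPr ((sp v).1.map L.toLinearMap) (pr2 (L (v.1 0)) (L (v.1 1))) := by
  rw [map_sp]
  exact isPr_pr2 (li_map L v.2)

/-- the projection of a point -/
noncomputable def q1 (X : Gr ℂ n 1) : Matrix (Fin N) (Fin N) ℂ :=
  pr (L ((Classical.choose (sp_surj X)).1 0))

/-- the projection of a plane -/
noncomputable def q2 (X : Gr ℂ n 2) : Matrix (Fin N) (Fin N) ℂ :=
  pr2 (L ((Classical.choose (sp_surj X)).1 0)) (L ((Classical.choose (sp_surj X)).1 1))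

theorem isPr_q1 (X : Gr ℂ n 1) : IsPr (X.1.map L.toLinearMap) (q1 L X) := by
  have h := isPr_sp1 L (Classical.choose (sp_surj X))
  rw [Classical.choose_spec (sp_surj X)] at h
  exact h

theorem isPr_q2 (X : Gr ℂ n 2) : IsPr (X.1.map L.toLinearMap) (q2 L X) := by
  have h := isPr_sp2 L (Classical.choose (sp_surj X))
  rw [Classical.choose_spec (sp_surj X)] at h
  exact h

theorem q1_sp (v : Fr ℂ n 1) : q1 L (sp v) = pr (L (v.1 0)) :=
  (isPr_q1 L (sp v)).unique (isPr_sp1 L v)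

theorem q2_sp (v : Fr ℂ n 2) : q2 L (sp v) = pr2 (L (v.1 0)) (L (v.1 1)) :=
  (isPr_q2 L (sp v)).unique (isPr_sp2 L v)

theorem q1_cont : Continuous (q1 L : Gr ℂ n 1 → Matrix (Fin N) (Fin N) ℂ) := by
  rw [(sp_quot (k := ℂ) (ι := n) (j := 1)).continuous_iff]
  have : (q1 L ∘ sp) = fun v : Fr ℂ n 1 => pr (L (v.1 0)) := by
    funext v
    exact q1_sp L v
  rw [this]
  exact pr_cont ((L_cont L).comp ((continuous_apply 0).comp fr_val_cont))
    fun v => L_ne L (v.2.ne_zero 0)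

theorem q2_cont : Continuous (q2 L : Gr ℂ n 2 → Matrix (Fin N) (Fin N) ℂ) := by
  rw [(sp_quot (k := ℂ) (ι := n) (j := 2)).continuous_iff]
  have : (q2 L ∘ sp) = fun v : Fr ℂ n 2 => pr2 (L (v.1 0)) (L (v.1 1)) := by
    funext v
    exact q2_sp L v
  rw [this]
  have h0 : Continuous fun v : Fr ℂ n 2 => L (v.1 0) :=
    (L_cont L).comp ((continuous_apply 0).comp fr_val_cont)
  have h1 : Continuous fun v : Fr ℂ n 2 => L (v.1 1) :=
    (L_cont L).comp ((continuous_apply 1).comp fr_val_cont)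
  have n0 : ∀ v : Fr ℂ n 2, L (v.1 0) ≠ 0 := fun v => L_ne L (v.2.ne_zero 0)
  refine (pr_cont h0 n0).add (pr_cont ?_ fun v => ww_ne (v := fun i => L (v.1 i)) (li_map L v.2))
  have hd : Continuous fun v : Fr ℂ n 2 => hp (L (v.1 0)) (L (v.1 1)) /
      hp (L (v.1 0)) (L (v.1 0)) :=
    (hp_cont h0 h1).div (hp_cont h0 h0) fun v => hp_ne (n0 v)
  exact h1.sub (hd.smul h0)

theorem map_inj {A B : Submodule ℂ (n → ℂ)} (h : A.map L.toLinearMap = B.map L.toLinearMap) :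
    A = B := Submodule.map_injective_of_injective L.injective h

theorem q1_inj : Function.Injective (q1 L : Gr ℂ n 1 → Matrix (Fin N) (Fin N) ℂ) := by
  intro X Y h
  apply Subtype.ext
  apply map_inj L
  ext v
  rw [(isPr_q1 L X).mem_iff, (isPr_q1 L Y).mem_iff, h]

theorem q2_inj : Function.Injective (q2 L : Gr ℂ n 2 → Matrix (Fin N) (Fin N) ℂ) := by
  intro X Y h
  apply Subtype.ext
  apply map_inj L
  ext v
  rw [(isPr_q2 L X).mem_iff, (isPr_q2 L Y).mem_iff, h]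

/-- a unit vector of a point -/
theorem q1_on (X : Gr ℂ n 1) : ∃ u : Fin N → ℂ, hp u u = 1 ∧ u ∈ X.1.map L.toLinearMap ∧
    q1 L X = vecMulVec u (star u) := by
  obtain ⟨v, rfl⟩ := sp_surj X
  have h0 := L_ne L (v.2.ne_zero 0)
  refine ⟨nrm (L (v.1 0)), nrm_unit h0, ?_, by rw [q1_sp]; exact vmv_nrm h0⟩
  rw [map_sp]
  exact Submodule.smul_mem _ _ (Submodule.subset_span ⟨0, rfl⟩)

/-- an orthonormal basis of a plane -/
theorem q2_on (X : Gr ℂ n 2) : ∃ u w : Fin N → ℂ, hp u u = 1 ∧ hp w w = 1 ∧ hp u w = 0 ∧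
    u ∈ X.1.map L.toLinearMap ∧ w ∈ X.1.map L.toLinearMap ∧
    q2 L X = vecMulVec u (star u) + vecMulVec w (star w) := by
  obtain ⟨v, rfl⟩ := sp_surj X
  have h := pr2_on (li_map L v.2)
  rw [← map_sp] at h
  rw [q2_sp]
  exact h

theorem hp_q1 (X : Gr ℂ n 1) : HP 1 (q1 L X) where
  herm := (isPr_q1 L X).herm
  idem := (isPr_q1 L X).idem
  tr := by
    obtain ⟨u, hu, -, h⟩ := q1_on L X
    rw [h, tr_of hu, Complex.ofReal_one]

theorem hp_q2 (X : Gr ℂ n 2) : HP 2 (q2 L X) where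
  herm := (isPr_q2 L X).herm
  idem := (isPr_q2 L X).idem
  tr := by
    obtain ⟨u, w, hu, hw, _, _, _, h⟩ := q2_on L X
    rw [h]
    simp only [Matrix.add_apply]
    rw [Finset.sum_add_distrib, tr_of hu, tr_of hw]
    norm_num

theorem q2_minor (X : Gr ℂ n 2) : Minor (q2 L X) := by
  obtain ⟨u, w, _, _, _, _, _, h⟩ := q2_on L X
  rw [h]
  exact minor_of u w _ _

/-- incidence -/
theorem inc_q (X : Gr ℂ n 1) (Y : Gr ℂ n 2) : q2 L Y * q1 L X = q1 L X ↔ X.1 ≤ Y.1 := by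
  constructor
  · intro h v hv
    have hv1 : L v ∈ X.1.map L.toLinearMap := ⟨v, hv, rfl⟩
    have hv' : q1 L X *ᵥ L v = L v := (isPr_q1 L X).fix _ hv1
    have h2 : L v ∈ Y.1.map L.toLinearMap := by
      rw [(isPr_q2 L Y).mem_iff]
      conv_lhs => rw [← hv']
      rw [Matrix.mulVec_mulVec, h, hv']
    obtain ⟨w, hw, hwv⟩ := h2
    rwa [← L.injective hwv]
  · intro h
    exact mul_eq_of (isPr_q2 L Y) fun v => Submodule.map_mono h ((isPr_q1 L X).mem v)

end pic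

section sgr

variable {n : Type} [Fintype n] [DecidableEq n] {N : ℕ} (L : (n → ℂ) ≃ₗ[ℂ] (Fin N → ℂ))
  {σ : ℂ →+* ℂ} {J : Matrix n n ℂ}

/-- singular points as hermitian projections -/
noncomputable def XH (σ : ℂ →+* ℂ) (J : Matrix n n ℂ) :
    C(SGr σ J 1, Matrix (Fin N) (Fin N) ℂ) := ⟨fun x => q1 L x.1, (q1_cont L).comp SGr.val_cont⟩

/-- singular planes as hermitian projections -/
noncomputable def PH (σ : ℂ →+* ℂ) (J : Matrix n n ℂ) :
    C(SGr σ J 2, Matrix (Fin N) (Fin N) ℂ) := ⟨fun x => q2 L x.1, (q2_cont L).comp SGr.val_cont⟩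

theorem geoH [Fact (Continuous σ)] : Geo (XH L σ J) (PH L σ J) where
  injX := fun x y h => Subtype.ext (q1_inj L h)
  injP := fun l l' h => Subtype.ext (q2_inj L h)
  pt := fun x => hp_q1 L x.1
  ln := fun l => hp_q2 L l.1
  minor := fun l => q2_minor L l.1

theorem incH (x : SGr σ J 1) (l : SGr σ J 2) :
    Inc x l ↔ PH L σ J l * XH L σ J x = XH L σ J x := (inc_q L x.1 l.1).symm

/-- the form in the new coordinates -/
structure Dg (σ : ℂ →+* ℂ) (J : Matrix n n ℂ) (c : ℂ) (D : Matrix (Fin N) (Fin N) ℂ) : Prop where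
  herm : Dᴴ = D
  sq : D * D = 1
  c0 : c ≠ 0
  eq : ∀ v w, hf σ J v w = c * (star (L w) ⬝ᵥ (D *ᵥ L v))

variable {L} {c : ℂ} {D : Matrix (Fin N) (Fin N) ℂ}

theorem Dg.zero (h : Dg L σ J c D) {S : Submodule ℂ (n → ℂ)} (hS : Sing σ J S) {v w : Fin N → ℂ}
    (hv : v ∈ S.map L.toLinearMap) (hw : w ∈ S.map L.toLinearMap) : star w ⬝ᵥ (D *ᵥ v) = 0 := by
  obtain ⟨a, ha, rfl⟩ := hv
  obtain ⟨b, hb, rfl⟩ := hw
  have h1 := h.eq a b
  rw [hS a ha b hb] at h1
  exact (mul_eq_zero.1 h1.symm).resolve_left h.c0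

/-- a unit vector of a point -/
theorem XH_on (h : Dg L σ J c D) (x : SGr σ J 1) : ∃ u : Fin N → ℂ, hp u u = 1 ∧
    star u ⬝ᵥ (D *ᵥ u) = 0 ∧ u ∈ x.S.map L.toLinearMap ∧
    XH L σ J x = vecMulVec u (star u) := by
  obtain ⟨u, h1, h2, h3⟩ := q1_on L x.1
  exact ⟨u, h1, h.zero x.sing h2 h2, h2, h3⟩

/-- an orthonormal basis of a plane -/
theorem PH_on (h : Dg L σ J c D) (l : SGr σ J 2) : ∃ u w : Fin N → ℂ, hp u u = 1 ∧ hp w w = 1 ∧
    hp u w = 0 ∧ star u ⬝ᵥ (D *ᵥ u) = 0 ∧ star u ⬝ᵥ (D *ᵥ w) = 0 ∧ star w ⬝ᵥ (D *ᵥ u) = 0 ∧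
    star w ⬝ᵥ (D *ᵥ w) = 0 ∧ u ∈ l.S.map L.toLinearMap ∧ w ∈ l.S.map L.toLinearMap ∧
    PH L σ J l = vecMulVec u (star u) + vecMulVec w (star w) := by
  obtain ⟨u, w, h1, h2, h3, h4, h5, h6⟩ := q2_on L l.1
  exact ⟨u, w, h1, h2, h3, h.zero l.sing h4 h4, h.zero l.sing h5 h4, h.zero l.sing h4 h5,
    h.zero l.sing h5 h5, h4, h5, h6⟩

/-- `q D q = 0` -/
theorem PH_iso (h : Dg L σ J c D) (l : SGr σ J 2) : PH L σ J l * D * PH L σ J l = 0 := by
  have h1 : IsPr (l.S.map L.toLinearMap) (PH L σ J l) := isPr_q2 L l.1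
  ext i j
  have h2 : (PH L σ J l * D * PH L σ J l) i j =
      star (PH L σ J l *ᵥ Pi.single i 1) ⬝ᵥ (D *ᵥ (PH L σ J l *ᵥ Pi.single j 1)) := by
    rw [Matrix.star_mulVec, h1.symm, ← Matrix.dotProduct_mulVec, Matrix.mulVec_mulVec,
      Matrix.mulVec_mulVec]
    have : star (Pi.single i (1 : ℂ) : Fin N → ℂ) = Pi.single i 1 := by
      ext k
      by_cases hk : k = i
      · subst hk
        simp
      · simp [hk]
    rw [this, Matrix.mulVec_single_one, single_dotProduct, one_mul]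
    rfl
  rw [h2, h.zero l.sing (h1.mem _) (h1.mem _)]
  rfl

/-- `q D q = 0` for points -/
theorem XH_iso (h : Dg L σ J c D) (x : SGr σ J 1) : XH L σ J x * D * XH L σ J x = 0 := by
  have h1 : IsPr (x.S.map L.toLinearMap) (XH L σ J x) := isPr_q1 L x.1
  ext i j
  have h2 : (XH L σ J x * D * XH L σ J x) i j =
      star (XH L σ J x *ᵥ Pi.single i 1) ⬝ᵥ (D *ᵥ (XH L σ J x *ᵥ Pi.single j 1)) := by
    rw [Matrix.star_mulVec, h1.symm, ← Matrix.dotProduct_mulVec, Matrix.mulVec_mulVec,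
      Matrix.mulVec_mulVec]
    have : star (Pi.single i (1 : ℂ) : Fin N → ℂ) = Pi.single i 1 := by
      ext k
      by_cases hk : k = i
      · subst hk
        simp
      · simp [hk]
    rw [this, Matrix.mulVec_single_one, single_dotProduct, one_mul]
    rfl
  rw [h2, h.zero x.sing (h1.mem _) (h1.mem _)]
  rfl

end sgr

end Vale.Agent.P092.H375.SU
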