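import Vale.Agent.P092.H375.SU.Dg
import Vale.Agent.P092.H100.SU.Defs

/-!
P092 (helper375), TRACK H, [H-INST], part 3: `Shape` (helper100) and the dictionary from the
projections to isotropic vectors of sup norm one.
-/

set_option linter.all false

namespace Vale.Agent.P092.H375.SU

open Matrix Module Set Topology
open Vale.Agent.P092.H370.Po
open Vale.Agent.P092.H714.Cl
open Vale.Agent.P092.H616.Cx (HP Geo)
open Vale.Agent.P092.H616.CG

variable {n : Type} [Fintype n] [DecidableEq n] {N : ℕ} {L : (n → ℂ) ≃ₗ[ℂ] (Fin N → ℂ)}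
  {σ : ℂ →+* ℂ} {ε : ℂ} {J : Matrix n n ℂ} {c : ℂ} {D : Matrix (Fin N) (Fin N) ℂ}

/-- the pointwise facts of helper100 -/
theorem shapeH (h : Dg L σ J c D) (hF : Frm σ ε J) (hW : WI σ J 2) :
    ∃ c' : ℂ, H100.SU.Shape (XH L σ J) (PH L σ J) D c' := by
  obtain ⟨c', hc', H⟩ := nu_PH h hF hW
  refine ⟨c', h.herm, h.sq, fun x => ?_, fun z => ?_, hc', fun z => ?_⟩
  · obtain ⟨u, h1, h2, -, h4⟩ := XH_on h x
    exact ⟨u, h1, h2, h4⟩
  · obtain ⟨a, b, h1, h2, h3, h4, h5, -, h7, -, -, h10⟩ := PH_on h z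
    exact ⟨a, b, h1, h2, h3, h4, h7, h5, h10⟩
  · have h1 := (mx_PH h hF hW z).dnu
    rw [H z] at h1
    exact h1.symm

theorem S_eq {x : SGr σ J 1} {a : n → ℂ} (ha : a ∈ x.S) (h0 : a ≠ 0) :
    x.S = Submodule.span ℂ {a} := by
  symm
  apply Submodule.eq_of_le_of_finrank_eq ((Submodule.span_singleton_le_iff_mem _ _).2 ha)
  rw [finrank_span_singleton h0, x.dim]

theorem XH_eq (L : (n → ℂ) ≃ₗ[ℂ] (Fin N → ℂ)) {x : SGr σ J 1} {a : n → ℂ} (ha : a ∈ x.S)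
    (h0 : a ≠ 0) : XH L σ J x = pr (L a) := by
  have h1 : IsPr (x.S.map L.toLinearMap) (XH L σ J x) := isPr_q1 L x.1
  rw [S_eq ha h0, Submodule.map_span, Set.image_singleton] at h1
  exact h1.unique (isPr_pr (L_ne L h0))

theorem pr_D_pr (v w : Fin N → ℂ) (D : Matrix (Fin N) (Fin N) ℂ) (i j : Fin N) :
    (pr v * D * pr w) i j =
      (hp v v)⁻¹ * (hp w w)⁻¹ * (v i * star (w j) * (star v ⬝ᵥ (D *ᵥ w))) := by
  have e : vecMulVec v (star v) * D * vecMulVec w (star w) =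
      (star v ⬝ᵥ (D *ᵥ w)) • vecMulVec v (star w) := by
    rw [Matrix.vecMulVec_mul, Matrix.vecMulVec_mul_vecMulVec, Matrix.dotProduct_mulVec,
      Matrix.vecMulVec_smul]
  rw [pr, pr, Matrix.smul_mul, Matrix.smul_mul, Matrix.mul_smul, e]
  simp only [Matrix.smul_apply, vecMulVec_apply, smul_eq_mul, Pi.star_apply]
  ring

/-- a positive function on a compact set is bounded below -/
theorem low {Y : Type*} [TopologicalSpace Y] {K : Set Y} (hK : IsCompact K) {f : Y → ℝ}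
    (hf : ContinuousOn f K) (hp : ∀ y ∈ K, 0 < f y) :
    ∃ m : ℝ, 0 < m ∧ m ≤ 1 ∧ ∀ y ∈ K, m ≤ f y := by
  rcases K.eq_empty_or_nonempty with rfl | hne
  · exact ⟨1, one_pos, le_rfl, fun y hy => absurd hy (Set.notMem_empty y)⟩
  · obtain ⟨y, hy, hmin⟩ := hK.exists_isMinOn hne hf
    exact ⟨min 1 (f y), lt_min one_pos (hp y hy), min_le_left _ _,
      fun z hz => (min_le_right _ _).trans (hmin hz)⟩

theorem ne_of_one {a : n → ℂ} (ha : ‖a‖ = 1) : a ≠ 0 := by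
  rintro rfl
  rw [norm_zero] at ha
  exact zero_ne_one ha

/-- the lower bound of the euclidean norm and the upper bound of the coordinates -/
theorem L_bd (L : (n → ℂ) ≃ₗ[ℂ] (Fin N → ℂ)) : ∃ m M : ℝ, 0 < m ∧ 0 ≤ M ∧ ∀ a : n → ℂ, ‖a‖ = 1 →
    m ≤ ns (L a) ∧ ∀ i, ‖L a i‖ ≤ M := by
  have hK : IsCompact (Metric.sphere (0 : n → ℂ) 1) := isCompact_sphere 0 1
  have hc : Continuous fun a : n → ℂ => ns (L a) := by
    unfold ns
    exact continuous_finset_sum _ fun i _ => ((continuous_apply i).comp (L_cont L)).norm.pow 2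
  obtain ⟨m, hm, -, H⟩ := low hK hc.continuousOn fun a ha =>
    ns_pos (L_ne L (ne_of_one (by simpa using ha)))
  obtain ⟨M, hM⟩ := hK.exists_bound_of_continuousOn (L_cont L).continuousOn
  refine ⟨m, |M|, hm, abs_nonneg _, fun a ha => ?_⟩
  have ha' : a ∈ Metric.sphere (0 : n → ℂ) 1 := by simpa using ha
  exact ⟨H a ha', fun i => (norm_le_pi_norm _ i).trans ((hM a ha').trans (le_abs_self _))⟩

theorem Dg.norm (h : Dg L σ J c D) (a b : n → ℂ) :
    ‖star (L a) ⬝ᵥ (D *ᵥ L b)‖ = ‖c‖⁻¹ * ‖hf σ J a b‖ := by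
  have h1 : star (L a) ⬝ᵥ (D *ᵥ L b) = star (star (L b) ⬝ᵥ (D *ᵥ L a)) := by
    rw [← Matrix.star_dotProduct_star, star_star, Matrix.star_mulVec, h.herm,
      ← Matrix.dotProduct_mulVec]
  rw [h1, norm_star, h.eq, norm_mul, ← mul_assoc, inv_mul_cancel₀ (norm_ne_zero_iff.2 h.c0),
    one_mul]

/-- proportional vectors have the same projection -/
theorem pr_prop {a b : n → ℂ} (ha : ‖a‖ = 1) (hb : ‖b‖ = 1)
    (h : ∀ i j, a i * b j - a j * b i = 0) : pr (L a) = pr (L b) := by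
  have a0 := ne_of_one ha
  have b0 := ne_of_one hb
  obtain ⟨i, hi⟩ : ∃ i, a i ≠ 0 := by
    by_contra hc
    push Not at hc
    exact a0 (funext hc)
  have hab : b = (b i / a i) • a := by
    funext j
    have h1 := h i j
    rw [Pi.smul_apply, smul_eq_mul]
    field_simp
    linear_combination h1
  have ht : b i / a i ≠ 0 := by
    intro h0
    rw [h0, zero_smul] at hab
    exact b0 hab
  have hs : Submodule.span ℂ {L b} = Submodule.span ℂ {L a} := by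
    conv_lhs => rw [hab]
    rw [map_smul]
    exact Submodule.span_singleton_smul_eq (IsUnit.mk0 _ ht) _
  have h2 := isPr_pr (L_ne L b0)
  rw [hs] at h2
  exact (isPr_pr (L_ne L a0)).unique h2

/-- far apart projections come from vectors with a large minor -/
theorem far_minor (L : (n → ℂ) ≃ₗ[ℂ] (Fin N → ℂ)) {δ : ℝ} (hδ : 0 < δ) :
    ∃ δ₀ : ℝ, 0 < δ₀ ∧ δ₀ ≤ 1 ∧ ∀ a b : n → ℂ, ‖a‖ = 1 → ‖b‖ = 1 →
      (∃ i j, δ ≤ ‖pr (L a) i j - pr (L b) i j‖) → ∃ i j, δ₀ ≤ ‖a i * b j - a j * b i‖ := by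
  let Y := Metric.sphere (0 : n → ℂ) 1 × Metric.sphere (0 : n → ℂ) 1
  have c1 : Continuous fun y : Y => pr (L y.1.1) :=
    pr_cont ((L_cont L).comp (continuous_subtype_val.comp continuous_fst))
      fun y => L_ne L (ne_of_one (by simpa using y.1.2))
  have c2 : Continuous fun y : Y => pr (L y.2.1) :=
    pr_cont ((L_cont L).comp (continuous_subtype_val.comp continuous_snd))
      fun y => L_ne L (ne_of_one (by simpa using y.2.2))
  let G : Y → (Fin N × Fin N → ℂ) := fun y ij => pr (L y.1.1) ij.1 ij.2 - pr (L y.2.1) ij.1 ij.2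
  have hG : Continuous G := continuous_pi fun ij =>
    (c1.matrix_elem ij.1 ij.2).sub (c2.matrix_elem ij.1 ij.2)
  let F : Y → (n × n → ℂ) := fun y ij => y.1.1 ij.1 * y.2.1 ij.2 - y.1.1 ij.2 * y.2.1 ij.1
  have d1 : Continuous fun y : Y => y.1.1 := continuous_subtype_val.comp continuous_fst
  have d2 : Continuous fun y : Y => y.2.1 := continuous_subtype_val.comp continuous_snd
  have hFc : Continuous F := continuous_pi fun ij =>
    (((continuous_apply ij.1).comp d1).mul ((continuous_apply ij.2).comp d2)).sub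
      (((continuous_apply ij.2).comp d1).mul ((continuous_apply ij.1).comp d2))
  have hK : IsCompact {y : Y | δ ≤ ‖G y‖} :=
    (isClosed_le continuous_const hG.norm).isCompact
  obtain ⟨δ₀, h0, h1, H⟩ := low hK hFc.norm.continuousOn (by
    intro y hy
    rw [norm_pos_iff]
    intro hz
    have h1 : pr (L y.1.1) = pr (L y.2.1) := by
      refine pr_prop (by simpa using y.1.2) (by simpa using y.2.2) fun i j => ?_
      exact congrFun hz (i, j)
    have h2 : G y = 0 := by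
      funext ij
      change pr (L y.1.1) ij.1 ij.2 - pr (L y.2.1) ij.1 ij.2 = 0
      rw [h1, sub_self]
    have h3 : δ ≤ ‖G y‖ := hy
    rw [h2, norm_zero] at h3
    exact absurd h3 (not_le.2 hδ))
  refine ⟨δ₀, h0, h1, ?_⟩
  rintro a b ha hb ⟨i, j, hij⟩
  let y : Y := (⟨a, by simpa using ha⟩, ⟨b, by simpa using hb⟩)
  have hy : δ ≤ ‖G y‖ := hij.trans (norm_le_pi_norm (G y) (i, j))
  have h2 := H y hy
  by_contra hcon
  push Not at hcon
  exact absurd h2 (not_le.2 ((pi_norm_lt_iff h0).2 fun ij => hcon ij.1 ij.2))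

/-- **the dictionary** -/
theorem dictH (h : Dg L σ J c D) {I : Type*} [Fintype I] {u v : I → C(SGr σ J 1, ℂ)} {C δ : ℝ}
    (hδ : 0 < δ)
    (h1 : ∀ x y, ‖∑ i, u i x * v i y‖ ≤ C * ∑ a, ∑ b, ‖(XH L σ J x * D * XH L σ J y) a b‖)
    (h2 : ∀ x y, (∀ a b, ‖XH L σ J x a b - XH L σ J y a b‖ < δ) → ∑ i, u i x * v i y = 0) :
    ∃ C₀ δ₀ : ℝ, 0 ≤ C₀ ∧ 0 < δ₀ ∧ δ₀ ≤ 1 ∧ ∀ (x y : SGr σ J 1) (a b : n → ℂ), a ∈ x.S →
      b ∈ y.S → ‖a‖ = 1 → ‖b‖ = 1 →
      ‖∑ i, u i x * v i y‖ ≤ C₀ * ‖hf σ J a b‖ ∧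
      (∑ i, u i x * v i y ≠ 0 → ∃ i j, δ₀ ≤ ‖a i * b j - a j * b i‖) := by
  obtain ⟨m, M, hm, hM, hL⟩ := L_bd L
  obtain ⟨δ₀, e0, e1, hfar⟩ := far_minor L hδ
  refine ⟨|C| * (N * N * (m⁻¹ * m⁻¹ * (M * M * ‖c‖⁻¹))), δ₀, by positivity, e0, e1, ?_⟩
  intro x y a b ha hb na nb
  have a0 := ne_of_one na
  have b0 := ne_of_one nb
  obtain ⟨ga, fa⟩ := hL a na
  obtain ⟨gb, fb⟩ := hL b nb
  have ia : ‖(hp (L a) (L a))⁻¹‖ ≤ m⁻¹ := by
    rw [hp_self, norm_inv, Complex.norm_real, Real.norm_eq_abs, abs_of_pos (hm.trans_le ga)]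
    exact inv_anti₀ hm ga
  have ib : ‖(hp (L b) (L b))⁻¹‖ ≤ m⁻¹ := by
    rw [hp_self, norm_inv, Complex.norm_real, Real.norm_eq_abs, abs_of_pos (hm.trans_le gb)]
    exact inv_anti₀ hm gb
  constructor
  · have key : ∀ i j : Fin N, ‖(XH L σ J x * D * XH L σ J y) i j‖ ≤
        m⁻¹ * m⁻¹ * (M * M * ‖c‖⁻¹) * ‖hf σ J a b‖ := by
      intro i j
      rw [XH_eq L ha a0, XH_eq L hb b0, pr_D_pr, norm_mul, norm_mul, norm_mul, norm_mul,
        norm_star, h.norm]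
      calc _ ≤ m⁻¹ * m⁻¹ * (M * M * (‖c‖⁻¹ * ‖hf σ J a b‖)) := by
            gcongr
            · exact fa i
            · exact fb j
        _ = _ := by ring
    calc _ ≤ C * ∑ i, ∑ j, ‖(XH L σ J x * D * XH L σ J y) i j‖ := h1 x y
      _ ≤ |C| * ∑ i, ∑ j, ‖(XH L σ J x * D * XH L σ J y) i j‖ :=
          mul_le_mul_of_nonneg_right (le_abs_self C)
            (Finset.sum_nonneg fun _ _ => Finset.sum_nonneg fun _ _ => norm_nonneg _)
      _ ≤ |C| * ∑ _i : Fin N, ∑ _j : Fin N,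
            m⁻¹ * m⁻¹ * (M * M * ‖c‖⁻¹) * ‖hf σ J a b‖ := by
          gcongr with i _ j _
          exact key i j
      _ = _ := by
          simp only [Finset.sum_const, Finset.card_univ, Fintype.card_fin, nsmul_eq_mul]
          ring
  · intro hne
    apply hfar a b na nb
    by_contra hcon
    push Not at hcon
    apply hne
    apply h2
    intro i j
    rw [XH_eq L ha a0, XH_eq L hb b0]
    exact hcon i j

/-- the dictionary in the literals of helper100 -/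
theorem dictH1 (h : Dg L σ J c D) {r : ℕ} {u v : Fin r → C(SGr σ J 1, ℂ)} {C δ : ℝ}
    (hδ : 0 < δ) (h1 : H100.SU.Sec1 (XH L σ J) D C u v) (h2 : H100.SU.Far1 (XH L σ J) δ u v) :
    ∃ C₀ δ₀ : ℝ, 0 ≤ C₀ ∧ 0 < δ₀ ∧ δ₀ ≤ 1 ∧ ∀ (x y : SGr σ J 1) (a b : n → ℂ), a ∈ x.S →
      b ∈ y.S → ‖a‖ = 1 → ‖b‖ = 1 →
      ‖∑ i, u i x * v i y‖ ≤ C₀ * ‖hf σ J a b‖ ∧
      (∑ i, u i x * v i y ≠ 0 → ∃ i j, δ₀ ≤ ‖a i * b j - a j * b i‖) :=
  dictH h hδ h1 h2

end Vale.Agent.P092.H375.SU
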