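import Vale.Agent.P092.H616.HB
import Vale.Agent.P092.H375.SU.Sh
import Vale.Agent.P092.CL.Asm
import Vale.Agent.P092.H337.C3d
import Vale.Agent.P092.H261.K3g
import Vale.Agent.P092.H142.SynX
import Vale.Agent.P092.H85.CU1
import Vale.Agent.P092.H378.D3

/-!
P092 (helper375), TRACK H: one leg of `SU(2, n)` is straight and everything commutes, from the
relations of the operator side.
-/

set_option linter.all false

open scoped InnerProductSpace ENNReal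
open Filter Topology MeasureTheory TopologicalSpace Matrix

namespace Vale.Agent.P092.H375.SU

open Vale.Agent.P092.CL
open Vale.Agent.P092.H303 (FormGroup Idx hyp)
open Vale.Agent.P092.H714.Cl
open Vale.Agent.P092.H370.Po (SGr Inc Sing WI)
open Vale.Agent.P092.SP (GQ)
open Vale.Agent.P092.H933 (LeviGap LocK)
open Vale.Agent.P092.H85.CU (NfD)
open Vale.Agent.P092.H99.CL (Count1Stmt Count2Stmt)
open Vale.Agent.P092.H616.HA (OneStmtR RelR)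
open Vale.Agent.P092.H100.SU (O1 Shape RelHStmt)

variable {ι : Type} [Fintype ι] [DecidableEq ι] {J₀ : Matrix ι ι ℂ}

theorem locK_complex : LocK ℂ := .cplx (RingEquiv.refl ℂ) fun _ => rfl

/-- **One leg of `SU(2, n)`** from the relations `RelHStmt`. -/
theorem oneStmtR_of [Fact (Continuous (starRingEnd ℂ))] (h : NfD (starRingEnd ℂ) 1 J₀ 0) {w : ℂ}
    (hw : w ≠ 0) (hσ : starRingEnd ℂ w = w) (hw1 : ‖w‖ < 1) (μ₁ : Measure ℂ)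
    (μ₂ : Measure (V2 (starRingEnd ℂ) 1)) [μ₁.IsAddHaarMeasure] [μ₂.IsAddHaarMeasure] {N : ℕ}
    {Λ : (Idx (0 + 2) ι → ℂ) ≃ₗ[ℂ] (Fin N → ℂ)} {c : ℂ} {D : Matrix (Fin N) (Fin N) ℂ}
    (hD : Dg Λ (starRingEnd ℂ) (hyp (0 + 2) 1 J₀) c D)
    (hR : RelHStmt (XH Λ (starRingEnd ℂ) (hyp (0 + 2) 1 J₀))
      (PH Λ (starRingEnd ℂ) (hyp (0 + 2) 1 J₀)) D) :
    OneStmtR (fun {K} _ _ U => O1 (XH Λ (starRingEnd ℂ) (hyp (0 + 2) 1 J₀)) D U)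
      (lt h.frm hw hσ μ₁ μ₂) := by
  have hF := h.frm
  have hW := h.wi
  have hσn := h.hn
  have hG := geo hF hW hσn hw hσ hw1 μ₁ μ₂
  haveI := H71.CLG.v2_proper (σ := starRingEnd ℂ) (ε := (1 : ℂ)) hσn
  haveI := hG.t2P
  haveI := hG.t2M
  haveI : IsFiniteMeasureOnCompacts (lt hF hw hσ μ₁ μ₂).μ₁ :=
    inferInstanceAs (IsFiniteMeasureOnCompacts μ₁)
  haveI : (lt hF hw hσ μ₁ μ₂).μ₁.IsOpenPosMeasure := inferInstanceAs μ₁.IsOpenPosMeasure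
  haveI : IsFiniteMeasureOnCompacts (lt hF hw hσ μ₁ μ₂).μ₂ :=
    inferInstanceAs (IsFiniteMeasureOnCompacts μ₂)
  haveI : (lt hF hw hσ μ₁ μ₂).μ₂.IsOpenPosMeasure := inferInstanceAs μ₂.IsOpenPosMeasure
  have hP : PurStmt (lt hF hw hσ μ₁ μ₂) := H306.G.purStmt_cl hF hW hw hσ hσn μ₁ μ₂ hG
  have hFl : FlipStmt (lt hF hw hσ μ₁ μ₂) := flip_lt hF hW (Or.inl two_ne_zero) hw hσ μ₁ μ₂
  have hQ : GQ (lt hF hw hσ μ₁ μ₂).In := gq_frm hF hW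
  have han : ∀ v, hf (starRingEnd ℂ) J₀ v v = 0 → v = 0 := fun v hv => by
    by_contra hv0
    exact h.an v hv0 hv
  have h1 : Count1Stmt (lt hF hw hσ μ₁ μ₂) :=
    H261.K3.count1_lt_all (Or.inl ⟨RingHom.id ℂ, fun _ => rfl⟩) hF hw hσ μ₁ μ₂ hσn hW
  have h2 : Count2Stmt (lt hF hw hσ μ₁ μ₂) :=
    H337.C3.count2Stmt locK_complex hF han hw hσ μ₁ μ₂
  have syn : H99.CL.SynStmt (lt hF hw hσ μ₁ μ₂) :=
    H142.SynX.synStmt_arch (τ := RingHom.id ℂ) (fun _ => rfl) (fun _ _ => Iff.rfl) hG.in_cl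
  have hJ : ∀ x z, (lt hF hw hσ μ₁ μ₂).In x z ↔
      PH Λ (starRingEnd ℂ) (hyp (0 + 2) 1 J₀) z * XH Λ (starRingEnd ℂ) (hyp (0 + 2) 1 J₀) x =
        XH Λ (starRingEnd ℂ) (hyp (0 + 2) 1 J₀) x := fun x z => incH Λ x z
  have hA : RelR (fun {K} _ _ U => O1 (XH Λ (starRingEnd ℂ) (hyp (0 + 2) 1 J₀)) D U)
      (lt hF hw hσ μ₁ μ₂) (XH Λ (starRingEnd ℂ) (hyp (0 + 2) 1 J₀))
      (PH Λ (starRingEnd ℂ) (hyp (0 + 2) 1 J₀)) := H616.HA.relR_of hJ hR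
  have h8 : FlipStmt (lt hF hw hσ μ₁ μ₂) →
      OneStmtR (fun {K} _ _ U => O1 (XH Λ (starRingEnd ℂ) (hyp (0 + 2) 1 J₀)) D U)
        (lt hF hw hσ μ₁ μ₂) :=
    H616.HA.oneR_counts hG hQ (geoH Λ) hP hA h1 h2 syn
  apply h8
  exact hFl

/-- **The relations** for every nondegenerate hermitian form of Witt index two over `ℂ`. -/
theorem relH_dg {n : Type} [Fintype n] [DecidableEq n] {σ : ℂ →+* ℂ} [Fact (Continuous σ)]
    {ε : ℂ} {J : Matrix n n ℂ} {N : ℕ} {Λ : (n → ℂ) ≃ₗ[ℂ] (Fin N → ℂ)} {c : ℂ}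
    {D : Matrix (Fin N) (Fin N) ℂ} (hD : Dg Λ σ J c D) (hF : Frm σ ε J) (hW : WI σ J 2) :
    RelHStmt (XH Λ σ J) (PH Λ σ J) D := by
  obtain ⟨c', hS⟩ := shapeH hD hF hW
  exact H378.D.relH hS (geoH Λ)

/-- **One leg of `SU(2, n)` is straight and everything commutes.** -/
theorem oneStmtR_ltH [Fact (Continuous (starRingEnd ℂ))] (h : NfD (starRingEnd ℂ) 1 J₀ 0) {w : ℂ}
    (hw : w ≠ 0) (hσ : starRingEnd ℂ w = w) (hw1 : ‖w‖ < 1) (μ₁ : Measure ℂ)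
    (μ₂ : Measure (V2 (starRingEnd ℂ) 1)) [μ₁.IsAddHaarMeasure] [μ₂.IsAddHaarMeasure] {N : ℕ}
    {Λ : (Idx (0 + 2) ι → ℂ) ≃ₗ[ℂ] (Fin N → ℂ)} {c : ℂ} {D : Matrix (Fin N) (Fin N) ℂ}
    (hD : Dg Λ (starRingEnd ℂ) (hyp (0 + 2) 1 J₀) c D) :
    OneStmtR (fun {K} _ _ U => O1 (XH Λ (starRingEnd ℂ) (hyp (0 + 2) 1 J₀)) D U)
      (lt h.frm hw hσ μ₁ μ₂) :=
  oneStmtR_of h hw hσ hw1 μ₁ μ₂ hD (relH_dg hD h.frm h.wi)

end Vale.Agent.P092.H375.SU
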